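import Mathlib
import Vale.Agent.Lib.P295.helper67.Defs

namespace Vale.Agent.Lib.P295.H86

open MvPolynomial

/-- A stable coordinate has no critical point: if `f` in `n` variables is a coordinate of the
polynomial ring in `n + m` variables, then at every point of `ℂ^n` some partial derivative of `f`
is nonzero. -/
theorem no_critical_point (n m : ℕ) (f : MvPolynomial (Fin n) ℂ)
    (h : Vale.Agent.Lib.P295.IsCoord (n + m) (rename (Fin.castAdd m) f)) (p : Fin n → ℂ) :
    ∃ j, eval p (pderiv j f) ≠ 0 := by
  classical
  obtain ⟨φ, i0, hφ⟩ := h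
  let D : MvPolynomial (Fin (n + m)) ℂ →ₗ[ℂ] MvPolynomial (Fin (n + m)) ℂ :=
    φ.toLinearMap ∘ₗ ((pderiv i0 : Derivation ℂ _ _) : _ →ₗ[ℂ] _) ∘ₗ φ.symm.toLinearMap
  have hD : ∀ g, D g = φ (pderiv i0 (φ.symm g)) := fun g => rfl
  have hmul : ∀ g g', D (g * g') = g * D g' + g' * D g := by
    intro g g'
    simp only [hD, map_mul, Derivation.leibniz, smul_eq_mul, map_add, AlgEquiv.apply_symm_apply]
  have hone : D (rename (Fin.castAdd m) f) = 1 := by
    rw [hD, ← hφ, AlgEquiv.symm_apply_apply, pderiv_X_self, map_one]
  have hDC : ∀ c : ℂ, D (C c) = 0 := by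
    intro c
    rw [hD]
    have : φ.symm (C c) = C c := by
      rw [← algebraMap_eq]
      exact φ.symm.commutes c
    rw [this, pderiv_C, map_zero]
  have hform : ∀ g : MvPolynomial (Fin (n + m)) ℂ, D g = ∑ j, pderiv j g * D (X j) := by
    intro g
    induction g using MvPolynomial.induction_on with
    | C c =>
      rw [hDC]
      symm
      apply Finset.sum_eq_zero
      intro j _
      rw [pderiv_C, zero_mul]
    | add g g' hg hg' =>
      rw [map_add, hg, hg', ← Finset.sum_add_distrib]
      apply Finset.sum_congr rfl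
      intro j _
      rw [map_add, add_mul]
    | mul_X g i hg =>
      rw [hmul, hg]
      have e : ∀ j, pderiv j (g * X i) * D (X j) =
          g * (pderiv j (X i) * D (X j)) + X i * (pderiv j g * D (X j)) := by
        intro j
        rw [pderiv_mul]
        ring
      simp only [e, Finset.sum_add_distrib, ← Finset.mul_sum]
      congr 1
      rw [Finset.sum_eq_single i]
      · rw [pderiv_X_self, one_mul]
      · intro j _ hji
        rw [pderiv_X_of_ne hji.symm, zero_mul]
      · intro hi
        exact absurd (Finset.mem_univ i) hi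
  let P : Fin (n + m) → ℂ := Fin.addCases p (fun _ => 0)
  by_contra hcon
  push Not at hcon
  have hzero : ∀ j : Fin (n + m), eval P (pderiv j (rename (Fin.castAdd m) f)) = 0 := by
    intro j
    induction j using Fin.addCases with
    | left j =>
      rw [pderiv_rename (Fin.castAdd_injective n m), eval_rename]
      have hP : (P ∘ Fin.castAdd m) = p := by
        funext i
        simp [P]
      rw [hP]
      exact hcon j
    | right j =>
      rw [pderiv_eq_zero_of_notMem_vars, map_zero]
      intro hmem
      have h2 := (vars_rename (Fin.castAdd m) f) hmem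
      obtain ⟨i, _, hi⟩ := Finset.mem_image.1 h2
      have h3 := congrArg Fin.val hi
      simp only [Fin.val_castAdd, Fin.val_natAdd] at h3
      have := i.2
      omega
  have h1 : eval P (D (rename (Fin.castAdd m) f)) = 1 := by
    rw [hone, map_one]
  rw [hform, map_sum] at h1
  simp only [map_mul, hzero, zero_mul, Finset.sum_const_zero] at h1
  exact zero_ne_one h1

/-- A polynomial `c x_j + g` with `c ≠ 0` and `g` independent of `x_j` is a coordinate. -/
theorem isCoord_of_linear (n : ℕ) (j : Fin n) (c : ℂ) (hc : c ≠ 0)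
    (g : MvPolynomial (Fin n) ℂ)
    (hg : ∀ t : MvPolynomial (Fin n) ℂ, aeval (Function.update X j t) g = g) :
    Vale.Agent.Lib.P295.IsCoord n (C c * X j + g) := by
  classical
  let φ : MvPolynomial (Fin n) ℂ →ₐ[ℂ] MvPolynomial (Fin n) ℂ :=
    aeval (Function.update X j (C c * X j + g))
  let ψ : MvPolynomial (Fin n) ℂ →ₐ[ℂ] MvPolynomial (Fin n) ℂ :=
    aeval (Function.update X j (C c⁻¹ * (X j - g)))
  have hφX : ∀ i, φ (X i) = Function.update X j (C c * X j + g) i := fun i => aeval_X _ i
  have hψX : ∀ i, ψ (X i) = Function.update X j (C c⁻¹ * (X j - g)) i := fun i => aeval_X _ i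
  have hφg : φ g = g := hg _
  have hψg : ψ g = g := hg _
  have hφC : ∀ a : ℂ, φ (C a) = C a := fun a => aeval_C _ a
  have hψC : ∀ a : ℂ, ψ (C a) = C a := fun a => aeval_C _ a
  have h1 : φ.comp ψ = AlgHom.id ℂ _ := by
    apply MvPolynomial.algHom_ext
    intro i
    rw [AlgHom.comp_apply, hψX, AlgHom.id_apply]
    by_cases hi : i = j
    · subst hi
      rw [Function.update_self, map_mul, map_sub, hφX, Function.update_self, hφg, hφC,
        add_sub_cancel_right, ← mul_assoc, ← C_mul, inv_mul_cancel₀ hc, C_1, one_mul]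
    · rw [Function.update_of_ne hi, hφX, Function.update_of_ne hi]
  have h2 : ψ.comp φ = AlgHom.id ℂ _ := by
    apply MvPolynomial.algHom_ext
    intro i
    rw [AlgHom.comp_apply, hφX, AlgHom.id_apply]
    by_cases hi : i = j
    · subst hi
      rw [Function.update_self, map_add, map_mul, hψX, Function.update_self, hψg, hψC,
        ← mul_assoc, ← C_mul, mul_inv_cancel₀ hc, C_1, one_mul, sub_add_cancel]
    · rw [Function.update_of_ne hi, hψX, Function.update_of_ne hi]
  refine ⟨AlgEquiv.ofAlgHom φ ψ h1 h2, j, ?_⟩
  show φ (X j) = _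
  rw [hφX, Function.update_self]

end Vale.Agent.Lib.P295.H86
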