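import Mathlib
import Vale.Agent.Lib.P295.helper86.Gradient

namespace Vale.Agent.Lib.P295.H86

open MvPolynomial

/-- Every weighted-homogeneous stable coordinate (positive weights) is a coordinate. -/
theorem weighted_stable_coord (n m : ℕ) (w : Fin n → ℕ) (hw : ∀ i, 0 < w i) (d : ℕ)
    (f : MvPolynomial (Fin n) ℂ) (hf : IsWeightedHomogeneous w f d)
    (h : Vale.Agent.Lib.P295.IsCoord (n + m) (rename (Fin.castAdd m) f)) :
    Vale.Agent.Lib.P295.IsCoord n f := by
  classical
  obtain ⟨j, hj⟩ := no_critical_point n m f h (fun _ => 0)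
  rw [eval_zero', constantCoeff_eq, coeff_pderiv] at hj
  have hc : coeff (Finsupp.single j 1) f ≠ 0 := by
    intro h0
    apply hj
    rw [zero_add, h0, zero_mul]
  set c := coeff (Finsupp.single j 1) f with hcdef
  have hdj : d = w j := by
    have := hf hc
    rw [Finsupp.weight_single, one_smul] at this
    exact this.symm
  -- the rest of f does not involve x_j
  have hrest : ∀ s : Fin n →₀ ℕ, coeff s (f - C c * X j) ≠ 0 → s j = 0 := by
    intro s hs
    by_contra hsj
    have hne : s ≠ Finsupp.single j 1 := by
      intro e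
      apply hs
      rw [e, coeff_sub, coeff_C_mul, coeff_X, if_pos rfl, mul_one, hcdef, sub_self]
    have hsf : coeff s f ≠ 0 := by
      intro e
      apply hs
      rw [coeff_sub, coeff_C_mul, coeff_X, if_neg (fun e' => hne e'.symm), mul_zero, e, sub_zero]
    have hws : Finsupp.weight w s = d := hf hsf
    have hsplit := Finsupp.weight_sub_single_add (w := w) hsj
    have hzero : Finsupp.weight w (s - Finsupp.single j 1) = 0 := by omega
    apply hne
    have hsub : s - Finsupp.single j 1 = 0 := by
      by_contra hne0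
      obtain ⟨i, hi⟩ := Finsupp.ne_iff.1 hne0
      have hi' : (s - Finsupp.single j 1 : Fin n →₀ ℕ) i ≠ 0 := by simpa using hi
      have := Finsupp.le_weight w (hw i).ne' (s - Finsupp.single j 1 : Fin n →₀ ℕ)
      omega
    ext i
    have hi := DFunLike.congr_fun hsub i
    simp only [Finsupp.coe_tsub, Pi.sub_apply, Finsupp.coe_zero, Pi.zero_apply] at hi
    by_cases hij : i = j
    · subst hij
      rw [Finsupp.single_eq_same] at hi ⊢
      omega
    · rw [Finsupp.single_eq_of_ne hij] at hi ⊢
      omega
  have hvars : j ∉ (f - C c * X j).vars := by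
    rw [mem_vars_iff_mem_support]
    rintro ⟨s, hs, hjs⟩
    have := hrest s (mem_support_iff.1 hs)
    exact (Finsupp.mem_support_iff.1 hjs) this
  have hg : ∀ t : MvPolynomial (Fin n) ℂ,
      aeval (Function.update X j t) (f - C c * X j) = f - C c * X j := by
    intro t
    conv_rhs => rw [← aeval_X_left_apply (f - C c * X j)]
    rw [aeval_eq_eval₂Hom, aeval_eq_eval₂Hom]
    apply eval₂Hom_congr' rfl _ rfl
    intro i hi _
    have hij : i ≠ j := fun e => hvars (e ▸ hi)
    rw [Function.update_of_ne hij]
  have := isCoord_of_linear n j c hc (f - C c * X j) hg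
  rwa [add_sub_cancel] at this

/-- Every stable coordinate that is a sum of one-variable polynomials is a coordinate. -/
theorem separated_stable_coord (n m : ℕ) (q : Fin n → Polynomial ℂ)
    (h : Vale.Agent.Lib.P295.IsCoord (n + m)
      (rename (Fin.castAdd m) (∑ i, Polynomial.aeval (X i : MvPolynomial (Fin n) ℂ) (q i)))) :
    Vale.Agent.Lib.P295.IsCoord n
      (∑ i, Polynomial.aeval (X i : MvPolynomial (Fin n) ℂ) (q i)) := by
  classical
  have hgrad := no_critical_point n m _ h
  -- the gradient of the sum
  have hpd : ∀ j : Fin n, pderiv j (∑ i, Polynomial.aeval (X i : MvPolynomial (Fin n) ℂ) (q i)) =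
      Polynomial.aeval (X j : MvPolynomial (Fin n) ℂ) (Polynomial.derivative (q j)) := by
    intro j
    rw [map_sum, Finset.sum_eq_single j]
    · rw [Derivation.map_aeval, pderiv_X_self, smul_eq_mul, mul_one]
    · intro i _ hij
      rw [Derivation.map_aeval, pderiv_X_of_ne hij, smul_zero]
    · intro hj
      exact absurd (Finset.mem_univ j) hj
  have hev : ∀ (p : Fin n → ℂ) (j : Fin n) (r : Polynomial ℂ),
      eval p (Polynomial.aeval (X j : MvPolynomial (Fin n) ℂ) r) = Polynomial.eval (p j) r := by
    intro p j r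
    have h1 := Polynomial.aeval_algHom_apply (aeval p : MvPolynomial (Fin n) ℂ →ₐ[ℂ] ℂ) (X j) r
    rw [aeval_X] at h1
    rw [← Polynomial.coe_aeval_eq_eval, h1]
    rfl
  -- some derivative has no root
  have hex : ∃ j : Fin n, ∀ a : ℂ, Polynomial.eval a (Polynomial.derivative (q j)) ≠ 0 := by
    by_contra hcon
    push Not at hcon
    choose a ha using hcon
    obtain ⟨j, hj⟩ := hgrad a
    apply hj
    rw [hpd, hev]
    exact ha j
  obtain ⟨j, hj⟩ := hex
  have hdeg : (q j).natDegree ≤ 1 := by
    by_contra hlt
    have h2 : 0 < (q j).natDegree := by omega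
    have h3 := Polynomial.degree_derivative (p := q j) h2.ne'
    have h4 : (Polynomial.derivative (q j)).degree ≠ 0 := by
      rw [h3]
      intro e
      have e' : ((q j).natDegree - 1 : ℕ) = 0 := by exact_mod_cast e
      omega
    obtain ⟨x, hx⟩ := IsAlgClosed.exists_root _ h4
    exact hj x hx
  have hq := Polynomial.eq_X_add_C_of_natDegree_le_one hdeg
  have hc : (q j).coeff 1 ≠ 0 := by
    intro e
    apply hj 0
    rw [hq, e]
    simp
  set c := (q j).coeff 1 with hcdef
  set b := (q j).coeff 0 with hbdef
  let g : MvPolynomial (Fin n) ℂ :=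
    C b + ∑ i ∈ Finset.univ.erase j, Polynomial.aeval (X i : MvPolynomial (Fin n) ℂ) (q i)
  have hsum : (∑ i, Polynomial.aeval (X i : MvPolynomial (Fin n) ℂ) (q i)) = C c * X j + g := by
    rw [← Finset.add_sum_erase _ _ (Finset.mem_univ j)]
    have : Polynomial.aeval (X j : MvPolynomial (Fin n) ℂ) (q j) = C c * X j + C b := by
      rw [hq]
      simp [algebraMap_eq]
    rw [this, add_assoc]
  have hg : ∀ t : MvPolynomial (Fin n) ℂ, aeval (Function.update X j t) g = g := by
    intro t
    show aeval (Function.update X j t) (C b + ∑ i ∈ Finset.univ.erase j,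
      Polynomial.aeval (X i : MvPolynomial (Fin n) ℂ) (q i)) = C b + ∑ i ∈ Finset.univ.erase j,
      Polynomial.aeval (X i : MvPolynomial (Fin n) ℂ) (q i)
    rw [map_add, aeval_C, map_sum, algebraMap_eq]
    congr 1
    apply Finset.sum_congr rfl
    intro i hi
    have hij : i ≠ j := Finset.ne_of_mem_erase hi
    rw [← Polynomial.aeval_algHom_apply, aeval_X, Function.update_of_ne hij]
  rw [hsum]
  exact isCoord_of_linear n j c hc g hg

end Vale.Agent.Lib.P295.H86
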